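import Mathlib

set_option autoImplicit false
set_option linter.unusedSectionVars false

namespace Crest.Agent.MarkovCotype

open Finset MeasureTheory

variable {V : Type*} [Fintype V] [DecidableEq V]

noncomputable def cutAt (a : V → ℝ) (θ : ℝ) : Finset V := Finset.univ.filter fun i => θ < a i

noncomputable def cutW (a : V → ℝ) (S : Finset V) : ℝ := volume.real (cutAt a ⁻¹' {S})

lemma measurableSet_cut (a : V → ℝ) (S : Finset V) : MeasurableSet (cutAt a ⁻¹' {S}) := by
  have : cutAt a ⁻¹' {S} = ⋂ i, {θ | θ < a i ↔ i ∈ S} := by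
    ext θ
    simp only [Set.mem_preimage, Set.mem_singleton_iff, Set.mem_iInter, Set.mem_ofPred_eq, cutAt,
      Finset.ext_iff, Finset.mem_filter, Finset.mem_univ, true_and]
  rw [this]
  refine MeasurableSet.iInter fun i => ?_
  by_cases h : i ∈ S
  · have : {θ | θ < a i ↔ i ∈ S} = Set.Iio (a i) := by ext θ; simp [h]
    rw [this]; exact measurableSet_Iio
  · have : {θ | θ < a i ↔ i ∈ S} = Set.Ici (a i) := by ext θ; simp [h]
    rw [this]; exact measurableSet_Ici

lemma cut_subset (a : V → ℝ) (S : Finset V) {i j : V} (hi : i ∈ S) (hj : j ∉ S) :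
    cutAt a ⁻¹' {S} ⊆ Set.Ico (a j) (a i) := by
  intro θ hθ
  simp only [Set.mem_preimage, Set.mem_singleton_iff] at hθ
  subst hθ
  simp only [cutAt, Finset.mem_filter, Finset.mem_univ, true_and, not_lt] at hi hj
  exact ⟨hj, hi⟩

lemma sum_cutW (a : V → ℝ) (i j : V) :
    ∑ S ∈ Finset.univ.filter (fun S : Finset V => i ∈ S ∧ j ∉ S), cutW a S = max (a i - a j) 0 := by
  unfold cutW
  rw [sum_measureReal_preimage_singleton _ (fun S _ => measurableSet_cut a S) ?_]
  · have : cutAt a ⁻¹' ((Finset.univ.filter (fun S : Finset V => i ∈ S ∧ j ∉ S) : Finset _) : Set _)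
        = Set.Ico (a j) (a i) := by
      ext θ
      simp [cutAt, and_comm]
    rw [this, Real.volume_real_Ico]
  · intro S hS
    simp only [Finset.mem_filter, Finset.mem_univ, true_and] at hS
    exact ne_top_of_le_ne_top (by simp) (measure_mono (cut_subset a S hS.1 hS.2))

lemma cutW_nonneg (a : V → ℝ) (S : Finset V) : 0 ≤ cutW a S := measureReal_nonneg

lemma cutW_le (a : V → ℝ) (S : Finset V) {i j : V} (hi : i ∈ S) (hj : j ∉ S) :
    cutW a S ≤ |a i - a j| := by
  have := measureReal_mono (μ := volume) (cut_subset a S hi hj) (by simp)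
  rw [Real.volume_real_Ico] at this
  exact this.trans (max_le (le_abs_self _) (abs_nonneg _))

def ind (S : Finset V) (i : V) : ℝ := if i ∈ S then 1 else 0

lemma sum_ind_sub (a : V → ℝ) (i j : V) :
    ∑ S, (ind S i - ind S j) * cutW a S = a i - a j := by
  have h1 := sum_cutW a i j
  have h2 := sum_cutW a j i
  rw [Finset.sum_filter] at h1 h2
  have : ∑ S, (ind S i - ind S j) * cutW a S = max (a i - a j) 0 - max (a j - a i) 0 := by
    rw [← h1, ← h2, ← Finset.sum_sub_distrib]
    refine Finset.sum_congr rfl fun S _ => ?_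
    by_cases hi : i ∈ S <;> by_cases hj : j ∈ S <;> simp [ind, hi, hj]
  rw [this]
  rcases le_total (a i) (a j) with h | h
  · rw [max_eq_right (by linarith), max_eq_left (by linarith)]; ring
  · rw [max_eq_left (by linarith), max_eq_right (by linarith)]; ring

lemma sum_abs_ind_sub (a : V → ℝ) (i j : V) :
    ∑ S, |ind S i - ind S j| * cutW a S = |a i - a j| := by
  have h1 := sum_cutW a i j
  have h2 := sum_cutW a j i
  rw [Finset.sum_filter] at h1 h2
  have : ∑ S, |ind S i - ind S j| * cutW a S = max (a i - a j) 0 + max (a j - a i) 0 := by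
    rw [← h1, ← h2, ← Finset.sum_add_distrib]
    refine Finset.sum_congr rfl fun S _ => ?_
    by_cases hi : i ∈ S <;> by_cases hj : j ∈ S <;> simp [ind, hi, hj]
  rw [this]
  rcases le_total (a i) (a j) with h | h
  · rw [max_eq_right (by linarith), max_eq_left (by linarith), abs_of_nonpos (by linarith)]; ring
  · rw [max_eq_left (by linarith), max_eq_right (by linarith), abs_of_nonneg (by linarith)]; ring

open Classical in
noncomputable def cutW' (a : V → ℝ) (S : Finset V) : ℝ :=
  if ∃ i j, i ∈ S ∧ j ∉ S then cutW a S else 0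

lemma mul_cutW' (a : V → ℝ) (S : Finset V) (i j : V) (g : ℝ → ℝ) (hg : g 0 = 0) :
    g (ind S i - ind S j) * cutW' a S = g (ind S i - ind S j) * cutW a S := by
  unfold cutW'
  split_ifs with h
  · rfl
  · push Not at h
    by_cases hi : i ∈ S
    · simp [ind, hi, h i j hi, hg]
    · by_cases hj : j ∈ S
      · exact absurd (h j i hj) hi
      · simp [ind, hi, hj, hg]

lemma norm_one_eq (x : lp (fun _ : ℕ => ℝ) 1) : ‖x‖ = ∑' c, |x c| := by
  rw [lp.norm_eq_tsum_rpow (by simp)]
  simp

lemma summable_one (x : lp (fun _ : ℕ => ℝ) 1) : Summable fun c => |x c| := by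
  have := (lp.memℓp x).summable (by simp)
  simpa using this

theorem cut_decomp (x : V → lp (fun _ : ℕ => ℝ) 1) :
    ∃ e : Finset V → lp (fun _ : ℕ => ℝ) 1, ∀ i j,
      x i - x j = ∑ S, (ind S i - ind S j) • e S ∧
        ‖x i - x j‖ = ∑ S, ‖e S‖ * |ind S i - ind S j| := by
  have hnn : ∀ S c, 0 ≤ cutW' (fun i => x i c) S := by
    intro S c; unfold cutW'; split_ifs
    · exact cutW_nonneg _ _
    · exact le_rfl
  have hsum : ∀ S, Summable fun c => cutW' (fun i => x i c) S := by
    intro S
    by_cases h : ∃ i j, i ∈ S ∧ j ∉ S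
    · obtain ⟨i, j, hi, hj⟩ := id h
      refine Summable.of_nonneg_of_le (hnn S) (fun c => ?_) (summable_one (x i - x j))
      unfold cutW'
      rw [if_pos h]
      simpa using cutW_le (fun i => x i c) S hi hj
    · simp only [cutW', if_neg h]; exact summable_zero
  have hmem : ∀ S, Memℓp (fun c => cutW' (fun i => x i c) S) 1 := by
    intro S
    refine memℓp_gen ?_
    simpa [abs_of_nonneg (hnn S _)] using hsum S
  refine ⟨fun S => ⟨_, hmem S⟩, fun i j => ⟨?_, ?_⟩⟩
  · ext c
    rw [lp.coeFn_sub, lp.coeFn_sum]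
    simp only [Pi.sub_apply, Finset.sum_apply, lp.coeFn_smul, Pi.smul_apply, smul_eq_mul]
    rw [← sum_ind_sub (fun i => x i c) i j]
    exact Finset.sum_congr rfl fun S _ => (mul_cutW' _ S i j id rfl).symm
  · rw [norm_one_eq]
    simp only [norm_one_eq, ← tsum_mul_right]
    rw [← Summable.tsum_finsetSum]
    · refine tsum_congr fun c => ?_
      rw [lp.coeFn_sub, Pi.sub_apply, ← sum_abs_ind_sub (fun i => x i c) i j]
      refine Finset.sum_congr rfl fun S _ => ?_
      rw [← mul_cutW' _ S i j abs abs_zero, mul_comm]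
      congr 1
      exact (abs_of_nonneg (hnn S c)).symm
    · intro S _
      exact (summable_one ⟨_, hmem S⟩).mul_right _

end Crest.Agent.MarkovCotype
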