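import Mathlib

set_option autoImplicit false

namespace Crest.Agent.MarkovCotype

open Finset

/-- smoothstep -/
def phi (u : ℝ) : ℝ := 3 * u ^ 2 - 2 * u ^ 3

def gg (a b : ℝ) : ℝ := 3 * (a + b) - 2 * (a ^ 2 + a * b + b ^ 2)

lemma phi_sub (a b : ℝ) : phi a - phi b = (a - b) * gg a b := by
  unfold phi gg; ring

lemma gg_nonneg {a b : ℝ} (ha : 0 ≤ a) (ha1 : a ≤ 1) (hb : 0 ≤ b) (hb1 : b ≤ 1) : 0 ≤ gg a b := by
  unfold gg; nlinarith [mul_nonneg ha (sub_nonneg.2 ha1), mul_nonneg hb (sub_nonneg.2 hb1), sq_nonneg (a - b)]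

lemma gg_le (a b : ℝ) : gg a b ≤ 3 / 2 := by
  unfold gg; nlinarith [sq_nonneg (a - b), sq_nonneg (a + b - 1)]

lemma gg_le' {a b : ℝ} (ha : 0 ≤ a) (hb : 0 ≤ b) : gg a b ≤ 3 * (a + b) := by
  unfold gg; nlinarith [mul_nonneg ha hb, sq_nonneg a, sq_nonneg b]

lemma gg_sq_le {a b : ℝ} (ha : 0 ≤ a) (ha1 : a ≤ 1) (hb : 0 ≤ b) (hb1 : b ≤ 1) :
    gg a b ^ 2 ≤ 9 / 2 * (a + b) := by
  have h0 := gg_nonneg ha ha1 hb hb1
  have h1 := gg_le a b
  have h2 := gg_le' ha hb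
  nlinarith

lemma abs_phi_sub_le {a b : ℝ} (ha : 0 ≤ a) (ha1 : a ≤ 1) (hb : 0 ≤ b) (hb1 : b ≤ 1) :
    |phi a - phi b| ≤ 3 / 2 * |a - b| := by
  rw [phi_sub, abs_mul, abs_of_nonneg (gg_nonneg ha ha1 hb hb1), mul_comm]
  exact mul_le_mul_of_nonneg_right (gg_le a b) (abs_nonneg _)

lemma phi_one_sub (a : ℝ) : phi (1 - a) = 1 - phi a := by unfold phi; ring

variable {ι : Type*} [Fintype ι]

/-- weighted Cauchy-Schwarz -/
lemma wcs (μ a b : ι → ℝ) (hμ : ∀ S, 0 ≤ μ S) :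
    (∑ S, μ S * (a S * b S)) ^ 2 ≤ (∑ S, μ S * a S ^ 2) * (∑ S, μ S * b S ^ 2) := by
  have h := Finset.sum_mul_sq_le_sq_mul_sq (Finset.univ : Finset ι)
    (fun S => Real.sqrt (μ S) * a S) (fun S => Real.sqrt (μ S) * b S)
  have e1 : ∀ S, Real.sqrt (μ S) * a S * (Real.sqrt (μ S) * b S) = μ S * (a S * b S) := by
    intro S
    have := Real.mul_self_sqrt (hμ S)
    calc _ = (Real.sqrt (μ S) * Real.sqrt (μ S)) * (a S * b S) := by ring
      _ = _ := by rw [this]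
  have e2 : ∀ (c : ι → ℝ) S, (Real.sqrt (μ S) * c S) ^ 2 = μ S * c S ^ 2 := by
    intro c S
    rw [mul_pow, Real.sq_sqrt (hμ S)]
  simpa only [e1, e2] using h

def NN (μ a : ι → ℝ) : ℝ := ∑ S, μ S * a S
def HH (μ a : ι → ℝ) : ℝ := ∑ S, μ S * a S ^ 2
def VV (μ a b : ι → ℝ) : ℝ := ∑ S, μ S * (a S - b S) ^ 2
def Phi (μ a : ι → ℝ) : ℝ := 8 * (NN μ a * HH μ a) + 36 * NN μ a ^ 2
/-- the linear term -/
def LL (μ b a : ι → ℝ) : ℝ :=
  ∑ S, μ S * (16 * NN μ b * b S + 8 * HH μ b + 72 * NN μ b) * (a S - b S)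

lemma bellman (μ a b : ι → ℝ) (hμ : ∀ S, 0 ≤ μ S) (ha : ∀ S, 0 ≤ a S) (ha1 : ∀ S, a S ≤ 1)
    (hb : ∀ S, 0 ≤ b S) (hb1 : ∀ S, b S ≤ 1) :
    (NN μ a + NN μ b) * VV μ a b ≤ Phi μ a - Phi μ b - LL μ b a := by
  set n := NN μ a - NN μ b with hn
  set P := ∑ S, μ S * (b S * (a S - b S)) with hP
  have hNb : 0 ≤ NN μ b := Finset.sum_nonneg fun S _ => mul_nonneg (hμ S) (hb S)
  have hNa : 0 ≤ NN μ a := Finset.sum_nonneg fun S _ => mul_nonneg (hμ S) (ha S)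
  have hV : 0 ≤ VV μ a b := Finset.sum_nonneg fun S _ => mul_nonneg (hμ S) (sq_nonneg _)
  have hHb : HH μ b ≤ NN μ b := Finset.sum_le_sum fun S _ =>
    mul_le_mul_of_nonneg_left (by nlinarith [hb S, hb1 S]) (hμ S)
  have hVle : VV μ a b ≤ NN μ a + NN μ b := by
    unfold VV NN
    rw [← Finset.sum_add_distrib]
    refine Finset.sum_le_sum fun S _ => ?_
    rw [← mul_add]
    exact mul_le_mul_of_nonneg_left (by nlinarith [hb S, hb1 S, ha S, ha1 S]) (hμ S)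
  have hH : HH μ a = HH μ b + 2 * P + VV μ a b := by
    unfold HH VV
    rw [hP, Finset.mul_sum, ← Finset.sum_add_distrib, ← Finset.sum_add_distrib]
    exact Finset.sum_congr rfl fun S _ => by ring
  have hL : LL μ b a = 16 * NN μ b * P + (8 * HH μ b + 72 * NN μ b) * n := by
    have : n = ∑ S, μ S * (a S - b S) := by
      rw [hn]; unfold NN; rw [← Finset.sum_sub_distrib]
      exact Finset.sum_congr rfl fun S _ => by ring
    unfold LL
    rw [this, hP, Finset.mul_sum, Finset.mul_sum, ← Finset.sum_add_distrib]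
    exact Finset.sum_congr rfl fun S _ => by ring
  have hP2 : P ^ 2 ≤ NN μ b * VV μ a b := by
    have := wcs μ b (fun S => a S - b S) hμ
    exact this.trans (mul_le_mul_of_nonneg_right hHb hV)
  have hNa' : NN μ a = NN μ b + n := by rw [hn]; ring
  have key : Phi μ a - Phi μ b - LL μ b a
      = 8 * (NN μ a * VV μ a b) + 16 * n * P + 36 * n ^ 2 := by
    unfold Phi
    rw [hL, hH, hNa']; ring
  rw [key]
  set V := VV μ a b
  set Nb := NN μ b
  set Na := NN μ a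
  have h1 : -(16 * n * P) ≤ 2 * (Nb * V) + 32 * n ^ 2 := by nlinarith [sq_nonneg (P + 4 * n)]
  have h2 : -(n * V) ≤ (Na + Nb) * V / 4 + n ^ 2 := by
    have : V * V ≤ (Na + Nb) * V := mul_le_mul_of_nonneg_right hVle hV
    nlinarith [sq_nonneg (V / 2 + n)]
  have h3 : Na * V = Nb * V + n * V := by rw [hNa']; ring
  have h4 : 0 ≤ Na * V := mul_nonneg hNa hV
  nlinarith

lemma rho_sq_le (μ a b : ι → ℝ) (hμ : ∀ S, 0 ≤ μ S) (ha : ∀ S, 0 ≤ a S) (ha1 : ∀ S, a S ≤ 1)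
    (hb : ∀ S, 0 ≤ b S) (hb1 : ∀ S, b S ≤ 1) :
    (∑ S, μ S * |phi (a S) - phi (b S)|) ^ 2 ≤ 9 / 2 * ((NN μ a + NN μ b) * VV μ a b) := by
  have e : ∀ S, |phi (a S) - phi (b S)| = |a S - b S| * gg (a S) (b S) := by
    intro S
    rw [phi_sub, abs_mul, abs_of_nonneg (gg_nonneg (ha S) (ha1 S) (hb S) (hb1 S))]
  simp only [e]
  refine (wcs μ _ _ hμ).trans ?_
  simp only [sq_abs]
  have hV : 0 ≤ VV μ a b := Finset.sum_nonneg fun S _ => mul_nonneg (hμ S) (sq_nonneg _)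
  have : ∑ S, μ S * gg (a S) (b S) ^ 2 ≤ 9 / 2 * (NN μ a + NN μ b) := by
    unfold NN
    rw [← Finset.sum_add_distrib, Finset.mul_sum]
    refine Finset.sum_le_sum fun S _ => ?_
    have := mul_le_mul_of_nonneg_left (gg_sq_le (ha S) (ha1 S) (hb S) (hb1 S)) (hμ S)
    linarith
  calc _ ≤ VV μ a b * (9 / 2 * (NN μ a + NN μ b)) := mul_le_mul_of_nonneg_left this hV
    _ = _ := by ring

section chain
variable {V : Type*} [Fintype V] [DecidableEq V] (A : Matrix V V ℝ)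

lemma pow_nonneg' (hA : ∀ i j, 0 ≤ A i j) (s : ℕ) : ∀ i j, 0 ≤ (A ^ s) i j := by
  induction s with
  | zero => intro i j; simp only [pow_zero, Matrix.one_apply]; split_ifs <;> norm_num
  | succ s ih =>
    intro i j
    rw [pow_succ, Matrix.mul_apply]
    exact Finset.sum_nonneg fun k _ => mul_nonneg (ih i k) (hA k j)

lemma pow_row (hA1 : ∀ i, ∑ j, A i j = 1) (s : ℕ) : ∀ i, ∑ j, (A ^ s) i j = 1 := by
  induction s with
  | zero => intro i; simp [Matrix.one_apply]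
  | succ s ih =>
    intro i
    simp only [pow_succ, Matrix.mul_apply]
    rw [Finset.sum_comm]
    simp only [← Finset.mul_sum, hA1, mul_one, ih]

lemma stat_one (w : V → ℝ) (hA1 : ∀ i, ∑ j, A i j = 1) (hrev : ∀ i j, w i * A i j = w j * A j i)
    (j : V) : ∑ i, w i * A i j = w j := by
  simp only [hrev _ j, ← Finset.mul_sum, hA1, mul_one]

lemma stat_pow (w : V → ℝ) (hA1 : ∀ i, ∑ j, A i j = 1) (hrev : ∀ i j, w i * A i j = w j * A j i)
    (s : ℕ) : ∀ j, ∑ i, w i * (A ^ s) i j = w j := by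
  induction s with
  | zero => intro j; simp [Matrix.one_apply]
  | succ s ih =>
    intro j
    simp only [pow_succ, Matrix.mul_apply, Finset.mul_sum]
    rw [Finset.sum_comm]
    simp only [← mul_assoc, ← Finset.sum_mul, ih]
    exact stat_one A w hA1 hrev j

/-- `u s S i = (A^s f_S)(i)` -/
def uu (f : ι → V → ℝ) (s : ℕ) (i : V) (S : ι) : ℝ := ∑ k, (A ^ s) i k * f S k

lemma uu_zero (f : ι → V → ℝ) (i : V) (S : ι) : uu A f 0 i S = f S i := by
  simp [uu, Matrix.one_apply]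

lemma uu_succ (f : ι → V → ℝ) (s : ℕ) (i : V) (S : ι) :
    uu A f (s + 1) i S = ∑ k, A i k * uu A f s k S := by
  simp only [uu, pow_succ', Matrix.mul_apply, Finset.sum_mul, Finset.mul_sum]
  rw [Finset.sum_comm]
  exact Finset.sum_congr rfl fun _ _ => Finset.sum_congr rfl fun _ _ => by ring

lemma uu_nonneg (hA : ∀ i j, 0 ≤ A i j) (f : ι → V → ℝ) (hf : ∀ S k, 0 ≤ f S k) (s : ℕ) (i : V)
    (S : ι) : 0 ≤ uu A f s i S :=
  Finset.sum_nonneg fun k _ => mul_nonneg (pow_nonneg' A hA s i k) (hf S k)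

lemma uu_le_one (hA : ∀ i j, 0 ≤ A i j) (hA1 : ∀ i, ∑ j, A i j = 1) (f : ι → V → ℝ)
    (hf : ∀ S k, f S k ≤ 1) (s : ℕ) (i : V) (S : ι) : uu A f s i S ≤ 1 := by
  calc uu A f s i S ≤ ∑ k, (A ^ s) i k * 1 :=
        Finset.sum_le_sum fun k _ => mul_le_mul_of_nonneg_left (hf S k) (pow_nonneg' A hA s i k)
    _ = 1 := by simp only [mul_one, pow_row A hA1 s i]

/-- one step of the Bellman inequality -/
lemma step (hA : ∀ i j, 0 ≤ A i j) (hA1 : ∀ i, ∑ j, A i j = 1) (μ : ι → ℝ) (hμ : ∀ S, 0 ≤ μ S)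
    (f : ι → V → ℝ) (hf0 : ∀ S k, 0 ≤ f S k) (hf1 : ∀ S k, f S k ≤ 1) (s : ℕ) (j : V) :
    ∑ k, A j k * (∑ S, μ S * |phi (uu A f (s + 1) j S) - phi (uu A f s k S)|) ^ 2 ≤
      9 / 2 * (∑ k, A j k * Phi μ (uu A f s k) - Phi μ (uu A f (s + 1) j)) := by
  have hL : ∑ k, A j k * LL μ (uu A f (s + 1) j) (uu A f s k) = 0 := by
    unfold LL
    simp only [Finset.mul_sum]
    rw [Finset.sum_comm]
    refine Finset.sum_eq_zero fun S _ => ?_
    have : ∑ k, A j k * (uu A f s k S - uu A f (s + 1) j S) = 0 := by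
      simp only [mul_sub, Finset.sum_sub_distrib, ← Finset.sum_mul, hA1, one_mul]
      rw [← uu_succ]; ring
    calc _ = (μ S * (16 * NN μ (uu A f (s + 1) j) * uu A f (s + 1) j S + 8 * HH μ (uu A f (s + 1) j)
          + 72 * NN μ (uu A f (s + 1) j))) * ∑ k, A j k * (uu A f s k S - uu A f (s + 1) j S) := by
          rw [Finset.mul_sum]; exact Finset.sum_congr rfl fun _ _ => by ring
      _ = 0 := by rw [this, mul_zero]
  have h1 : ∀ k, (∑ S, μ S * |phi (uu A f (s + 1) j S) - phi (uu A f s k S)|) ^ 2 ≤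
      9 / 2 * (Phi μ (uu A f s k) - Phi μ (uu A f (s + 1) j) - LL μ (uu A f (s + 1) j) (uu A f s k)) := by
    intro k
    have a0 := uu_nonneg A hA f hf0
    have a1 := uu_le_one A hA hA1 f hf1
    have := rho_sq_le μ (uu A f s k) (uu A f (s + 1) j) hμ (a0 s k) (a1 s k) (a0 _ j) (a1 _ j)
    simp only [abs_sub_comm (phi (uu A f (s + 1) j _))]
    refine this.trans (mul_le_mul_of_nonneg_left ?_ (by norm_num))
    exact bellman μ _ _ hμ (a0 s k) (a1 s k) (a0 _ j) (a1 _ j)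
  calc _ ≤ ∑ k, A j k * (9 / 2 * (Phi μ (uu A f s k) - Phi μ (uu A f (s + 1) j)
        - LL μ (uu A f (s + 1) j) (uu A f s k))) :=
        Finset.sum_le_sum fun k _ => mul_le_mul_of_nonneg_left (h1 k) (hA j k)
    _ = 9 / 2 * (∑ k, A j k * Phi μ (uu A f s k) - (∑ k, A j k) * Phi μ (uu A f (s + 1) j)
        - ∑ k, A j k * LL μ (uu A f (s + 1) j) (uu A f s k)) := by
        rw [Finset.sum_mul, ← Finset.sum_sub_distrib, ← Finset.sum_sub_distrib, Finset.mul_sum]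
        exact Finset.sum_congr rfl fun _ _ => by ring
    _ = _ := by rw [hL, hA1]; ring

lemma Phi_nonneg (μ a : ι → ℝ) (hμ : ∀ S, 0 ≤ μ S) (ha : ∀ S, 0 ≤ a S) : 0 ≤ Phi μ a := by
  have h1 : 0 ≤ NN μ a := Finset.sum_nonneg fun S _ => mul_nonneg (hμ S) (ha S)
  have h2 : 0 ≤ HH μ a := Finset.sum_nonneg fun S _ => mul_nonneg (hμ S) (sq_nonneg _)
  unfold Phi; positivity

/-- telescoped Bellman inequality from a fixed start -/
lemma telescope (hA : ∀ i j, 0 ≤ A i j) (hA1 : ∀ i, ∑ j, A i j = 1) (μ : ι → ℝ) (hμ : ∀ S, 0 ≤ μ S)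
    (f : ι → V → ℝ) (hf0 : ∀ S k, 0 ≤ f S k) (hf1 : ∀ S k, f S k ≤ 1) (t : ℕ) (i : V) :
    ∑ s ∈ range t, ∑ j, (A ^ (t - 1 - s)) i j *
        ∑ k, A j k * (∑ S, μ S * |phi (uu A f (s + 1) j S) - phi (uu A f s k S)|) ^ 2 ≤
      9 / 2 * ∑ k, (A ^ t) i k * Phi μ (uu A f 0 k) := by
  set Ψ : ℕ → ℝ := fun s => ∑ k, (A ^ (t - s)) i k * Phi μ (uu A f s k) with hΨ
  have h1 : ∀ s ∈ range t, ∑ j, (A ^ (t - 1 - s)) i j *
        ∑ k, A j k * (∑ S, μ S * |phi (uu A f (s + 1) j S) - phi (uu A f s k S)|) ^ 2 ≤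
      9 / 2 * (Ψ s - Ψ (s + 1)) := by
    intro s hs
    have hs' := Finset.mem_range.1 hs
    calc _ ≤ ∑ j, (A ^ (t - 1 - s)) i j *
          (9 / 2 * (∑ k, A j k * Phi μ (uu A f s k) - Phi μ (uu A f (s + 1) j))) :=
          Finset.sum_le_sum fun j _ => mul_le_mul_of_nonneg_left (step A hA hA1 μ hμ f hf0 hf1 s j)
            (pow_nonneg' A hA _ i j)
      _ = _ := by
          have e1 : t - s = (t - 1 - s) + 1 := by omega
          have e2 : t - (s + 1) = t - 1 - s := by omega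
          simp only [hΨ]
          rw [e1, e2, pow_succ]
          simp only [Matrix.mul_apply, Finset.sum_mul]
          rw [Finset.sum_comm, ← Finset.sum_sub_distrib, Finset.mul_sum]
          refine Finset.sum_congr rfl fun j _ => ?_
          rw [mul_sub, mul_sub, mul_sub, Finset.mul_sum, Finset.mul_sum, Finset.mul_sum]
          congr 1
          · exact Finset.sum_congr rfl fun _ _ => by ring
          · ring
  calc _ ≤ ∑ s ∈ range t, 9 / 2 * (Ψ s - Ψ (s + 1)) := Finset.sum_le_sum h1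
    _ = 9 / 2 * (Ψ 0 - Ψ t) := by rw [← Finset.mul_sum, Finset.sum_range_sub']
    _ ≤ 9 / 2 * Ψ 0 := by
        have : 0 ≤ Ψ t := Finset.sum_nonneg fun k _ => mul_nonneg (pow_nonneg' A hA _ i k)
          (Phi_nonneg μ _ hμ (uu_nonneg A hA f hf0 t k))
        linarith
    _ = _ := by simp [hΨ]

end chain

end Crest.Agent.MarkovCotype
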