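import Crest.Agent.MarkovCotype.Finite

set_option autoImplicit false
set_option linter.unusedSectionVars false

namespace Crest.Agent.MarkovCotype

open Finset

variable {ι : Type*} [Fintype ι] {V : Type*} [Fintype V] [DecidableEq V] (A : Matrix V V ℝ)

/-- the cut distance -/
def dd (μ : ι → ℝ) (f : ι → V → ℝ) (i j : V) : ℝ := ∑ S, μ S * |f S i - f S j|

/-- mean square displacement at time `s` -/
def DD (w : V → ℝ) (μ : ι → ℝ) (f : ι → V → ℝ) (s : ℕ) : ℝ :=
  ∑ i, ∑ j, w i * (A ^ s) i j * dd μ f i j ^ 2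

def rho (μ : ι → ℝ) (f : ι → V → ℝ) (s : ℕ) (i : V) (s' : ℕ) (j : V) : ℝ :=
  ∑ S, μ S * |phi (uu A f s i S) - phi (uu A f s' j S)|

lemma uu_ref (hA1 : ∀ i, ∑ j, A i j = 1) (f : ι → V → ℝ) (hf : ∀ S k, f S k = 0 ∨ f S k = 1)
    (i0 : V) (s s' : ℕ) (i j : V) (S : ι) :
    |phi (uu A (fun S k => |f S i0 - f S k|) s i S) - phi (uu A (fun S k => |f S i0 - f S k|) s' j S)|
      = |phi (uu A f s i S) - phi (uu A f s' j S)| := by
  rcases hf S i0 with h | h
  · have : ∀ s i, uu A (fun S k => |f S i0 - f S k|) s i S = uu A f s i S := by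
      intro s i
      unfold uu
      refine Finset.sum_congr rfl fun k _ => ?_
      rcases hf S k with h' | h' <;> simp [h, h']
    rw [this, this]
  · have : ∀ s i, uu A (fun S k => |f S i0 - f S k|) s i S = 1 - uu A f s i S := by
      intro s i
      unfold uu
      rw [← pow_row A hA1 s i, ← Finset.sum_sub_distrib]
      refine Finset.sum_congr rfl fun k _ => ?_
      rcases hf S k with h' | h' <;> simp [h, h']
    rw [this, this, phi_one_sub, phi_one_sub, abs_sub_comm]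
    congr 1; ring

lemma mart (w : V → ℝ) (hw : ∀ i, 0 ≤ w i) (hA : ∀ i j, 0 ≤ A i j) (hA1 : ∀ i, ∑ j, A i j = 1)
    (hrev : ∀ i j, w i * A i j = w j * A j i) (μ : ι → ℝ) (hμ : ∀ S, 0 ≤ μ S)
    (f : ι → V → ℝ) (hf : ∀ S k, f S k = 0 ∨ f S k = 1) (t : ℕ) :
    ∑ s ∈ range t, ∑ j, ∑ k, w j * A j k * rho A μ f (s + 1) j s k ^ 2 ≤ 198 * DD A w μ f t := by
  have h1 : ∀ i0, ∑ s ∈ range t, ∑ j, (A ^ (t - 1 - s)) i0 j *
        ∑ k, A j k * rho A μ f (s + 1) j s k ^ 2 ≤ 198 * ∑ k, (A ^ t) i0 k * dd μ f i0 k ^ 2 := by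
    intro i0
    have := telescope A hA hA1 μ hμ (fun S k => |f S i0 - f S k|) (fun S k => abs_nonneg _)
      (fun S k => by rcases hf S i0 with h | h <;> rcases hf S k with h' | h' <;> simp [h, h']) t i0
    simp only [uu_ref A hA1 f hf i0] at this
    refine this.trans (le_of_eq ?_)
    rw [Finset.mul_sum, Finset.mul_sum]
    refine Finset.sum_congr rfl fun k _ => ?_
    have e1 : NN μ (uu A (fun S k => |f S i0 - f S k|) 0 k) = dd μ f i0 k := by
      unfold NN dd; simp only [uu_zero]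
    have e2 : HH μ (uu A (fun S k => |f S i0 - f S k|) 0 k) = dd μ f i0 k := by
      unfold HH dd; simp only [uu_zero]
      refine Finset.sum_congr rfl fun S _ => ?_
      rcases hf S i0 with h | h <;> rcases hf S k with h' | h' <;> simp [h, h']
    unfold Phi
    rw [e1, e2]; ring
  calc _ = ∑ i0, w i0 * ∑ s ∈ range t, ∑ j, (A ^ (t - 1 - s)) i0 j *
        ∑ k, A j k * rho A μ f (s + 1) j s k ^ 2 := by
        simp only [Finset.mul_sum]
        symm
        rw [Finset.sum_comm]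
        refine Finset.sum_congr rfl fun s _ => ?_
        rw [Finset.sum_comm]
        refine Finset.sum_congr rfl fun j _ => ?_
        rw [Finset.sum_comm]
        refine Finset.sum_congr rfl fun k _ => ?_
        rw [← stat_pow A w hA1 hrev (t - 1 - s) j, Finset.sum_mul, Finset.sum_mul]
        exact Finset.sum_congr rfl fun _ _ => by ring
    _ ≤ ∑ i0, w i0 * (198 * ∑ k, (A ^ t) i0 k * dd μ f i0 k ^ 2) :=
        Finset.sum_le_sum fun i0 _ => mul_le_mul_of_nonneg_left (h1 i0) (hw i0)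
    _ = _ := by
        unfold DD
        simp only [Finset.mul_sum]
        exact Finset.sum_congr rfl fun _ _ => Finset.sum_congr rfl fun _ _ => by ring

lemma rho_zero (w : V → ℝ) (hw : ∀ i, 0 ≤ w i) (hA : ∀ i j, 0 ≤ A i j) (hA1 : ∀ i, ∑ j, A i j = 1)
    (μ : ι → ℝ) (hμ : ∀ S, 0 ≤ μ S)
    (f : ι → V → ℝ) (hf : ∀ S k, f S k = 0 ∨ f S k = 1) (s : ℕ) :
    ∑ i, w i * rho A μ f 0 i s i ^ 2 ≤ 9 / 4 * DD A w μ f s := by
  have hf0 : ∀ S k, 0 ≤ f S k := fun S k => by rcases hf S k with h | h <;> simp [h]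
  have hf1 : ∀ S k, f S k ≤ 1 := fun S k => by rcases hf S k with h | h <;> simp [h]
  have a0 := uu_nonneg A hA f hf0
  have a1 := uu_le_one A hA hA1 f hf1
  have hp := pow_nonneg' A hA s
  have h1 : ∀ i, rho A μ f 0 i s i ≤ 3 / 2 * ∑ k, (A ^ s) i k * dd μ f i k := by
    intro i
    unfold rho dd
    simp only [Finset.mul_sum]
    rw [Finset.sum_comm]
    refine Finset.sum_le_sum fun S _ => ?_
    have h2 := abs_phi_sub_le (a0 0 i S) (a1 0 i S) (a0 s i S) (a1 s i S)
    have h3 : |uu A f 0 i S - uu A f s i S| ≤ ∑ k, (A ^ s) i k * |f S i - f S k| := by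
      rw [uu_zero]
      have : f S i - uu A f s i S = ∑ k, (A ^ s) i k * (f S i - f S k) := by
        simp only [mul_sub, Finset.sum_sub_distrib, ← Finset.sum_mul, pow_row A hA1 s i, one_mul, uu]
      rw [this]
      refine (Finset.abs_sum_le_sum_abs _ _).trans (le_of_eq ?_)
      exact Finset.sum_congr rfl fun k _ => by rw [abs_mul, abs_of_nonneg (hp i k)]
    calc _ ≤ μ S * (3 / 2 * ∑ k, (A ^ s) i k * |f S i - f S k|) :=
          mul_le_mul_of_nonneg_left (h2.trans (by linarith)) (hμ S)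
      _ = _ := by
          simp only [Finset.mul_sum]
          exact Finset.sum_congr rfl fun _ _ => by ring
  have h2 : ∀ i, rho A μ f 0 i s i ^ 2 ≤ 9 / 4 * ∑ k, (A ^ s) i k * dd μ f i k ^ 2 := by
    intro i
    have hr : 0 ≤ rho A μ f 0 i s i :=
      Finset.sum_nonneg fun S _ => mul_nonneg (hμ S) (abs_nonneg _)
    have h3 := wcs (fun k => (A ^ s) i k) (fun _ => 1) (fun k => dd μ f i k) (hp i)
    simp only [one_mul, one_pow, mul_one, pow_row A hA1 s i] at h3
    calc _ ≤ (3 / 2 * ∑ k, (A ^ s) i k * dd μ f i k) ^ 2 := pow_le_pow_left₀ hr (h1 i) 2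
      _ = 9 / 4 * (∑ k, (A ^ s) i k * dd μ f i k) ^ 2 := by ring
      _ ≤ _ := by linarith
  calc _ ≤ ∑ i, w i * (9 / 4 * ∑ k, (A ^ s) i k * dd μ f i k ^ 2) :=
        Finset.sum_le_sum fun i _ => mul_le_mul_of_nonneg_left (h2 i) (hw i)
    _ = _ := by
        unfold DD
        simp only [Finset.mul_sum]
        exact Finset.sum_congr rfl fun _ _ => Finset.sum_congr rfl fun _ _ => by ring

lemma dd_tri (μ : ι → ℝ) (hμ : ∀ S, 0 ≤ μ S) (f : ι → V → ℝ) (i j k : V) :
    dd μ f i k ^ 2 ≤ 2 * dd μ f i j ^ 2 + 2 * dd μ f j k ^ 2 := by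
  have h : dd μ f i k ≤ dd μ f i j + dd μ f j k := by
    unfold dd
    rw [← Finset.sum_add_distrib]
    refine Finset.sum_le_sum fun S _ => ?_
    rw [← mul_add]
    exact mul_le_mul_of_nonneg_left (abs_sub_le _ _ _) (hμ S)
  have h0 : 0 ≤ dd μ f i k := Finset.sum_nonneg fun S _ => mul_nonneg (hμ S) (abs_nonneg _)
  nlinarith [sq_nonneg (dd μ f i j - dd μ f j k)]

lemma DD_add (w : V → ℝ) (hw : ∀ i, 0 ≤ w i) (hA : ∀ i j, 0 ≤ A i j) (hA1 : ∀ i, ∑ j, A i j = 1)
    (hrev : ∀ i j, w i * A i j = w j * A j i) (μ : ι → ℝ) (hμ : ∀ S, 0 ≤ μ S)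
    (f : ι → V → ℝ) (s s' : ℕ) :
    DD A w μ f (s + s') ≤ 2 * DD A w μ f s + 2 * DD A w μ f s' := by
  have hp := pow_nonneg' A hA
  calc DD A w μ f (s + s') = ∑ i, ∑ j, ∑ k, w i * (A ^ s) i j * (A ^ s') j k * dd μ f i k ^ 2 := by
        unfold DD
        refine Finset.sum_congr rfl fun i _ => ?_
        rw [Finset.sum_comm]
        refine Finset.sum_congr rfl fun k _ => ?_
        rw [pow_add, Matrix.mul_apply, Finset.mul_sum, Finset.sum_mul]
        exact Finset.sum_congr rfl fun _ _ => by ring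
    _ ≤ ∑ i, ∑ j, ∑ k, w i * (A ^ s) i j * (A ^ s') j k *
          (2 * dd μ f i j ^ 2 + 2 * dd μ f j k ^ 2) :=
        Finset.sum_le_sum fun i _ => Finset.sum_le_sum fun j _ => Finset.sum_le_sum fun k _ =>
          mul_le_mul_of_nonneg_left (dd_tri μ hμ f i j k)
            (mul_nonneg (mul_nonneg (hw i) (hp s i j)) (hp s' j k))
    _ = 2 * (∑ i, ∑ j, w i * (A ^ s) i j * dd μ f i j ^ 2 * ∑ k, (A ^ s') j k)
        + 2 * ∑ j, ∑ k, (∑ i, w i * (A ^ s) i j) * (A ^ s') j k * dd μ f j k ^ 2 := by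
        simp only [mul_add, Finset.sum_add_distrib, Finset.mul_sum, Finset.sum_mul]
        congr 1
        · exact Finset.sum_congr rfl fun _ _ => Finset.sum_congr rfl fun _ _ =>
            Finset.sum_congr rfl fun _ _ => by ring
        · rw [Finset.sum_comm]
          refine Finset.sum_congr rfl fun j _ => ?_
          rw [Finset.sum_comm]
          exact Finset.sum_congr rfl fun _ _ => Finset.sum_congr rfl fun _ _ => by ring
    _ = _ := by
        simp only [pow_row A hA1, stat_pow A w hA1 hrev, mul_one]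
        rfl

lemma DD_nonneg (w : V → ℝ) (hw : ∀ i, 0 ≤ w i) (hA : ∀ i j, 0 ≤ A i j) (μ : ι → ℝ)
    (f : ι → V → ℝ) (s : ℕ) : 0 ≤ DD A w μ f s :=
  Finset.sum_nonneg fun i _ => Finset.sum_nonneg fun j _ =>
    mul_nonneg (mul_nonneg (hw i) (pow_nonneg' A hA s i j)) (sq_nonneg _)

lemma DD_zero (w : V → ℝ) (μ : ι → ℝ) (f : ι → V → ℝ) : DD A w μ f 0 = 0 := by
  unfold DD
  refine Finset.sum_eq_zero fun i _ => Finset.sum_eq_zero fun j _ => ?_
  by_cases h : i = j
  · subst h; simp [dd]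
  · simp [Matrix.one_apply, h]

lemma DD_le_avg (w : V → ℝ) (hw : ∀ i, 0 ≤ w i) (hA : ∀ i j, 0 ≤ A i j) (hA1 : ∀ i, ∑ j, A i j = 1)
    (hrev : ∀ i j, w i * A i j = w j * A j i) (μ : ι → ℝ) (hμ : ∀ S, 0 ≤ μ S)
    (f : ι → V → ℝ) (t : ℕ) :
    t * DD A w μ f t ≤ 4 * ∑ s ∈ range t, DD A w μ f (s + 1) := by
  have h1 : ∀ s ∈ range t, DD A w μ f t ≤ 2 * DD A w μ f (s + 1) + 2 * DD A w μ f (t - 1 - s) := by
    intro s hs
    have hs' := Finset.mem_range.1 hs
    have := DD_add A w hw hA hA1 hrev μ hμ f (s + 1) (t - 1 - s)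
    rwa [show s + 1 + (t - 1 - s) = t by omega] at this
  have h2 := Finset.sum_le_sum h1
  rw [Finset.sum_const, Finset.card_range, nsmul_eq_mul, Finset.sum_add_distrib, ← Finset.mul_sum,
    ← Finset.mul_sum, Finset.sum_range_reflect (fun s => DD A w μ f s) t] at h2
  have h3 : ∑ s ∈ range t, DD A w μ f s ≤ ∑ s ∈ range t, DD A w μ f (s + 1) := by
    have e := Finset.sum_range_succ' (fun s => DD A w μ f s) t
    rw [Finset.sum_range_succ, DD_zero] at e
    have := DD_nonneg A w hw hA μ f t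
    linarith
  linarith

/-- the averaged nonlinear point -/
noncomputable def gavg (f : ι → V → ℝ) (t : ℕ) (i : V) (S : ι) : ℝ :=
  (1 / (t : ℝ)) * ∑ s ∈ range t, phi (uu A f (s + 1) i S)

theorem finite_main (w : V → ℝ) (hw : ∀ i, 0 ≤ w i) (hA : ∀ i j, 0 ≤ A i j)
    (hA1 : ∀ i, ∑ j, A i j = 1)
    (hrev : ∀ i j, w i * A i j = w j * A j i) (μ : ι → ℝ) (hμ : ∀ S, 0 ≤ μ S)
    (f : ι → V → ℝ) (hf : ∀ S k, f S k = 0 ∨ f S k = 1) (t : ℕ) (ht : 1 ≤ t) :
    ∑ i, w i * (∑ S, μ S * |f S i - gavg A f t i S|) ^ 2 +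
      t * ∑ i, ∑ j, w i * A i j * (∑ S, μ S * |gavg A f t i S - gavg A f t j S|) ^ 2 ≤
      3024 * ((1 / (t : ℝ)) * ∑ s ∈ range t, DD A w μ f (s + 1)) := by
  have ht0 : (0 : ℝ) < t := by exact_mod_cast ht
  have ht1 : (1 : ℝ) ≤ t := by exact_mod_cast ht
  have hphi : ∀ S i, phi (uu A f 0 i S) = f S i := by
    intro S i; rw [uu_zero]; rcases hf S i with h | h <;> simp [h, phi]; norm_num
  have hrho : ∀ s i s' j, 0 ≤ rho A μ f s i s' j := fun s i s' j =>
    Finset.sum_nonneg fun S _ => mul_nonneg (hμ S) (abs_nonneg _)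
  -- first term
  have h1 : ∀ i, (∑ S, μ S * |f S i - gavg A f t i S|) ^ 2 ≤
      (1 / (t : ℝ)) * ∑ s ∈ range t, rho A μ f 0 i (s + 1) i ^ 2 := by
    intro i
    have a : ∑ S, μ S * |f S i - gavg A f t i S| ≤
        (1 / (t : ℝ)) * ∑ s ∈ range t, rho A μ f 0 i (s + 1) i := by
      unfold rho
      rw [Finset.sum_comm, Finset.mul_sum]
      refine Finset.sum_le_sum fun S _ => ?_
      have : f S i - gavg A f t i S =
          (1 / (t : ℝ)) * ∑ s ∈ range t, (phi (uu A f 0 i S) - phi (uu A f (s + 1) i S)) := by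
        rw [Finset.sum_sub_distrib, hphi, Finset.sum_const, Finset.card_range, nsmul_eq_mul, gavg]
        field_simp
      rw [this, abs_mul, abs_of_nonneg (by positivity : (0 : ℝ) ≤ 1 / t), ← Finset.mul_sum]
      have := Finset.abs_sum_le_sum_abs
        (fun s => phi (uu A f 0 i S) - phi (uu A f (s + 1) i S)) (range t)
      have h' := mul_le_mul_of_nonneg_left this
        (mul_nonneg (hμ S) (by positivity : (0 : ℝ) ≤ 1 / t))
      linarith
    have b := sq_sum_le_card_mul_sum_sq (s := range t) (f := fun s => rho A μ f 0 i (s + 1) i)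
    rw [Finset.card_range] at b
    have c : 0 ≤ ∑ S, μ S * |f S i - gavg A f t i S| :=
      Finset.sum_nonneg fun S _ => mul_nonneg (hμ S) (abs_nonneg _)
    calc _ ≤ ((1 / (t : ℝ)) * ∑ s ∈ range t, rho A μ f 0 i (s + 1) i) ^ 2 :=
          pow_le_pow_left₀ c a 2
      _ = (1 / (t : ℝ)) ^ 2 * (∑ s ∈ range t, rho A μ f 0 i (s + 1) i) ^ 2 := by ring
      _ ≤ (1 / (t : ℝ)) ^ 2 * (t * ∑ s ∈ range t, rho A μ f 0 i (s + 1) i ^ 2) :=
          mul_le_mul_of_nonneg_left b (by positivity)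
      _ = _ := by field_simp
  have h1' : ∑ i, w i * (∑ S, μ S * |f S i - gavg A f t i S|) ^ 2 ≤
      9 / 4 * ((1 / (t : ℝ)) * ∑ s ∈ range t, DD A w μ f (s + 1)) := by
    calc _ ≤ ∑ i, w i * ((1 / (t : ℝ)) * ∑ s ∈ range t, rho A μ f 0 i (s + 1) i ^ 2) :=
          Finset.sum_le_sum fun i _ => mul_le_mul_of_nonneg_left (h1 i) (hw i)
      _ = (1 / (t : ℝ)) * ∑ s ∈ range t, ∑ i, w i * rho A μ f 0 i (s + 1) i ^ 2 := by
          rw [Finset.sum_comm]
          simp only [Finset.mul_sum]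
          exact Finset.sum_congr rfl fun _ _ => Finset.sum_congr rfl fun _ _ => by ring
      _ ≤ (1 / (t : ℝ)) * ∑ s ∈ range t, 9 / 4 * DD A w μ f (s + 1) :=
          mul_le_mul_of_nonneg_left (Finset.sum_le_sum fun s _ =>
            rho_zero A w hw hA hA1 μ hμ f hf (s + 1)) (by positivity)
      _ = _ := by rw [← Finset.mul_sum]; ring
  -- second term
  have h2 : ∀ i j, t * (∑ S, μ S * |gavg A f t i S - gavg A f t j S|) ^ 2 ≤
      2 * (∑ s ∈ range t, rho A μ f (s + 1) i s j ^ 2 + rho A μ f 0 j t j ^ 2) := by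
    intro i j
    have a : ∑ S, μ S * |gavg A f t i S - gavg A f t j S| ≤
        (1 / (t : ℝ)) * (∑ s ∈ range t, rho A μ f (s + 1) i s j + rho A μ f 0 j t j) := by
      unfold rho
      rw [Finset.sum_comm, ← Finset.sum_add_distrib, Finset.mul_sum]
      refine Finset.sum_le_sum fun S _ => ?_
      have : gavg A f t i S - gavg A f t j S =
          (1 / (t : ℝ)) * (∑ s ∈ range t, (phi (uu A f (s + 1) i S) - phi (uu A f s j S))
            + (phi (uu A f 0 j S) - phi (uu A f t j S))) := by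
        have e := Finset.sum_range_succ' (fun s => phi (uu A f s j S)) t
        rw [Finset.sum_range_succ] at e
        rw [Finset.sum_sub_distrib, gavg, gavg, ← mul_sub]
        congr 1
        linarith
      rw [this, abs_mul, abs_of_nonneg (by positivity : (0 : ℝ) ≤ 1 / t), ← Finset.mul_sum]
      have := (abs_add_le _ (phi (uu A f 0 j S) - phi (uu A f t j S))).trans
        (add_le_add_left (Finset.abs_sum_le_sum_abs
        (fun s => phi (uu A f (s + 1) i S) - phi (uu A f s j S)) (range t)) _)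
      have h' := mul_le_mul_of_nonneg_left this
        (mul_nonneg (hμ S) (by positivity : (0 : ℝ) ≤ 1 / t))
      linarith
    have b := sq_sum_le_card_mul_sum_sq (s := range t) (f := fun s => rho A μ f (s + 1) i s j)
    rw [Finset.card_range] at b
    have c : 0 ≤ ∑ S, μ S * |gavg A f t i S - gavg A f t j S| :=
      Finset.sum_nonneg fun S _ => mul_nonneg (hμ S) (abs_nonneg _)
    set X := ∑ s ∈ range t, rho A μ f (s + 1) i s j
    set Q := ∑ s ∈ range t, rho A μ f (s + 1) i s j ^ 2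
    set r := rho A μ f 0 j t j
    have d : (X + r) ^ 2 ≤ 2 * (t * Q) + 2 * (t * r ^ 2) := by
      have : r ^ 2 ≤ t * r ^ 2 := le_mul_of_one_le_left (sq_nonneg _) ht1
      nlinarith [sq_nonneg (X - r)]
    calc _ ≤ t * ((1 / (t : ℝ)) * (X + r)) ^ 2 :=
          mul_le_mul_of_nonneg_left (pow_le_pow_left₀ c a 2) ht0.le
      _ = (1 / (t : ℝ)) * (X + r) ^ 2 := by field_simp
      _ ≤ (1 / (t : ℝ)) * (2 * (t * Q) + 2 * (t * r ^ 2)) :=
          mul_le_mul_of_nonneg_left d (by positivity)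
      _ = _ := by field_simp
  have h2' : t * ∑ i, ∑ j, w i * A i j * (∑ S, μ S * |gavg A f t i S - gavg A f t j S|) ^ 2 ≤
      2 * (198 * DD A w μ f t + 9 / 4 * DD A w μ f t) := by
    calc _ = ∑ i, ∑ j, w i * A i j *
          (t * (∑ S, μ S * |gavg A f t i S - gavg A f t j S|) ^ 2) := by
          simp only [Finset.mul_sum _ _ (t : ℝ)]
          exact Finset.sum_congr rfl fun _ _ => Finset.sum_congr rfl fun _ _ => by ring
      _ ≤ ∑ i, ∑ j, w i * A i j *
          (2 * (∑ s ∈ range t, rho A μ f (s + 1) i s j ^ 2 + rho A μ f 0 j t j ^ 2)) :=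
          Finset.sum_le_sum fun i _ => Finset.sum_le_sum fun j _ =>
            mul_le_mul_of_nonneg_left (h2 i j) (mul_nonneg (hw i) (hA i j))
      _ = 2 * (∑ s ∈ range t, ∑ i, ∑ j, w i * A i j * rho A μ f (s + 1) i s j ^ 2
          + ∑ j, (∑ i, w i * A i j) * rho A μ f 0 j t j ^ 2) := by
          simp only [mul_add, Finset.sum_add_distrib, Finset.mul_sum, Finset.sum_mul]
          congr 1
          · rw [Finset.sum_comm (s := range t)]
            refine Finset.sum_congr rfl fun i _ => ?_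
            rw [Finset.sum_comm (s := range t)]
            exact Finset.sum_congr rfl fun _ _ => Finset.sum_congr rfl fun _ _ => by ring
          · rw [Finset.sum_comm]
            exact Finset.sum_congr rfl fun _ _ => Finset.sum_congr rfl fun _ _ => by ring
      _ ≤ _ := by
          simp only [stat_one A w hA1 hrev]
          have := mart A w hw hA hA1 hrev μ hμ f hf t
          have := rho_zero A w hw hA hA1 μ hμ f hf t
          linarith
  have h3 := DD_le_avg A w hw hA hA1 hrev μ hμ f t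
  have h4 : DD A w μ f t ≤ 4 * ((1 / (t : ℝ)) * ∑ s ∈ range t, DD A w μ f (s + 1)) := by
    rw [← mul_le_mul_iff_right₀ ht0]
    calc _ ≤ _ := h3
      _ = _ := by field_simp
  have h5 : 0 ≤ (1 / (t : ℝ)) * ∑ s ∈ range t, DD A w μ f (s + 1) :=
    mul_nonneg (by positivity) (Finset.sum_nonneg fun s _ => DD_nonneg A w hw hA μ f _)
  linarith

end Crest.Agent.MarkovCotype
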